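import Vale.Agent.P249.Main

open MeasureTheory

/-- Near linear dimension reduction: for all real `p ≥ 1` and `D > 1` there is a constant `C` such
that every `n`-point subset `X` of every `L_p(μ)` admits a map into `ℓ_p^d`, with
`d ≤ C n (log n) ^ p`, of distortion at most `D`. -/
theorem Vale.Agent.Results.P249.NearLinear.result.{u} (p D : ℝ) (hp : 1 ≤ p) (hD : 1 < D) :
    ∃ C : ℝ, ∀ n : ℕ, 2 ≤ n →
      ∀ (Ω : Type u) [MeasurableSpace Ω] (μ : Measure Ω) [Fact (1 ≤ ENNReal.ofReal p)]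
        (X : Finset (Lp ℝ (ENNReal.ofReal p) μ)), X.card = n →
        ∃ d : ℕ, (d : ℝ) ≤ C * n * Real.log n ^ p ∧
          ∃ (f : Lp ℝ (ENNReal.ofReal p) μ → Fin d → ℝ) (s : ℝ), 0 < s ∧
            ∀ x ∈ X, ∀ y ∈ X,
              s * ‖x - y‖ ≤ (∑ k, |f x k - f y k| ^ p) ^ (1 / p) ∧
              (∑ k, |f x k - f y k| ^ p) ^ (1 / p) ≤ D * s * ‖x - y‖ :=
  ⟨Vale.Agent.P249.constK p D, fun _ hn _ _ _ _ X hX => Vale.Agent.P249.main_bound hp hD hn X hX⟩
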